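import Mathlib
import Vale.Agent.P125.Defs
import Vale.Agent.P125.Walk
import Vale.Agent.P125.Limit
import Vale.Agent.P125.Renorm

/-!
# P125: nontrivial Markov type implies superreflexivity

A normed space with Markov type `p > 1` has an equivalent uniformly convex norm and an equivalent
uniformly smooth norm.
-/

namespace Vale.Agent.Results.P125.Superreflexive

open Vale.Agent.P125

universe u

/-- Every real normed space with Markov type `p > 1` is uniformly convexifiable and uniformly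
smoothable, hence superreflexive. -/
theorem result :
    ∀ (X : Type u) [NormedAddCommGroup X] [NormedSpace ℝ X] (p : ℝ), 1 < p →
      (∃ K : ℝ, 0 < K ∧
        ∀ (n : ℕ) (π : Fin n → ℝ) (P : Matrix (Fin n) (Fin n) ℝ),
          (∀ i, 0 ≤ π i) → ∑ i, π i = 1 → (∀ i j, 0 ≤ P i j) → (∀ i, ∑ j, P i j = 1) →
          (∀ i j, π i * P i j = π j * P j i) →
          ∀ (f : Fin n → X) (t : ℕ), 1 ≤ t →
            ∑ i, ∑ j, π i * (P ^ t) i j * ‖f j - f i‖ ^ p ≤
              K ^ p * t * ∑ i, ∑ j, π i * P i j * ‖f j - f i‖ ^ p) →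
      (∃ N : Seminorm ℝ X,
        (∃ a b : ℝ, 0 < a ∧ 0 < b ∧ ∀ x, a * ‖x‖ ≤ N x ∧ N x ≤ b * ‖x‖) ∧
        ∀ ε : ℝ, 0 < ε → ∃ δ : ℝ, 0 < δ ∧ ∀ x y, N x ≤ 1 → N y ≤ 1 → ε ≤ N (x - y) →
          N ((1 / 2 : ℝ) • (x + y)) ≤ 1 - δ) ∧
      (∃ N : Seminorm ℝ X,
        (∃ a b : ℝ, 0 < a ∧ 0 < b ∧ ∀ x, a * ‖x‖ ≤ N x ∧ N x ≤ b * ‖x‖) ∧
        ∀ ε : ℝ, 0 < ε → ∃ τ₀ : ℝ, 0 < τ₀ ∧ ∀ τ : ℝ, 0 < τ → τ ≤ τ₀ → ∀ x y, N x = 1 → N y = 1 →
          (N (x + τ • y) + N (x - τ • y)) / 2 - 1 ≤ ε * τ) := by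
  intro X _ _ p hp hM
  obtain ⟨K, hK, hMK⟩ := hM
  have hno : NoSummingSystems X := by
    intro θ hθ
    by_contra hcon
    push Not at hcon
    choose x hx1 hx2 using hcon
    let q : ∀ n : ℕ, (Fin n → ℝ) → ℝ := fun n a => ‖∑ i, a i • x n i‖
    have hsys : ∀ n, IsSystem θ (q n) := fun n =>
      { add_le := fun a b => by
          show ‖∑ i, (a + b) i • x n i‖ ≤ ‖∑ i, a i • x n i‖ + ‖∑ i, b i • x n i‖
          simp only [Pi.add_apply, add_smul, Finset.sum_add_distrib]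
          exact norm_add_le _ _
        smul := fun c a => by
          show ‖∑ i, (c • a) i • x n i‖ = |c| * ‖∑ i, a i • x n i‖
          simp only [Pi.smul_apply, smul_eq_mul, ← smul_smul, ← Finset.smul_sum, norm_smul,
            Real.norm_eq_abs]
        le_sum := fun a => (norm_sum_le _ _).trans (Finset.sum_le_sum fun i _ => by
          rw [norm_smul, Real.norm_eq_abs]
          exact mul_le_of_le_one_right (abs_nonneg _) (hx1 n i))
        lower := fun a i j => hx2 n a i j }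
    obtain ⟨S⟩ := exists_spreadNorm hθ hsys
    exact false_of_spreadNorm hp hK hMK hθ (fun n => ⟨x n, fun a => rfl⟩) S
  exact ⟨exists_equiv_uniformlyConvex hno, exists_equiv_uniformlySmooth hno⟩

end Vale.Agent.Results.P125.Superreflexive
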